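import Vale.Agent.P280A30.Rows
import Vale.Agent.P299G40.Gaga
import Vale.Agent.P299G40.Irr

/-!
# P280: an embedded compact connected complex manifold is a smooth projective variety (row VAR)
-/

set_option linter.all false

open scoped Manifold ContDiff
open Set Filter Topology MvPolynomial
open Vale.Agent.P272.K Vale.Agent.P300.Final Vale.Agent.P299G40
open Vale.Agent.P009.AV (IsZar IrrClosed HasDimP aff)
open Vale.Agent.P009.AV.H532
open Vale.Agent.P300LC (ev an_ev fd_ev)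

noncomputable section

namespace Vale.Agent.P280A.V19

variable {n N : ℕ}

theorem low {Z : Set (PN N)} {z : PN N} {i : Fin (N + 1)} (hz : z ∈ Z) (hi : z.rep i ≠ 0) {m : ℕ}
    {σ : Cm m → Fin (N + 1) → ℂ} {t₀ : Cm m} (hσ : DifferentiableAt ℂ σ t₀) (h0 : σ t₀ = aff i z)
    (hZ : ∀ (P : MvPolynomial (Fin (N + 1)) ℂ) (d : ℕ), P.IsHomogeneous d →
      (∀ y ∈ Z, eval y.rep P = 0) → ∀ᶠ t in 𝓝 t₀, eval (σ t) P = 0)
    (h1 : ∀ᶠ t in 𝓝 t₀, σ t i = 1) (inj : ∀ v, fderiv ℂ σ t₀ v = 0 → v = 0) :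
    m + 1 ≤ Module.finrank ℂ (tangent Z z) := by
  let Λ : (ℂ × Cm m) →ₗ[ℂ] (Fin (N + 1) → ℂ) :=
    (LinearMap.toSpanSingleton ℂ _ z.rep).coprod (fderiv ℂ σ t₀).toLinearMap
  have ΛK : ∀ p, Λ p ∈ tangent Z z := fun p => by
    refine Submodule.add_mem _ (Submodule.smul_mem _ _ fun P ⟨⟨d, hd⟩, hP⟩ => ?_)
      fun P ⟨⟨d, hd⟩, hP⟩ => ?_
    · simpa only [map_sum, map_mul, eval_X, map_nsmul, hP z hz, nsmul_zero,
        polynomialDifferential] using congrArg (eval z.rep) hd.sum_X_mul_pderiv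
    · have c := fderiv_comp t₀ (an_ev P (σ t₀)).differentiableAt hσ
      have c0 : ev P ∘ σ =ᶠ[𝓝 t₀] fun _ => 0 := hZ P d hd hP
      rw [c0.fderiv_eq, fderiv_fun_const, h0] at c
      have c1 : fderiv ℂ (ev P) (aff i z) (fderiv ℂ σ t₀ p.2) = 0 :=
        (DFunLike.congr_fun c p.2).symm
      rw [fd_ev] at c1
      simp only [polynomialDifferential, fun b => eval_rep hi (hd.pderiv (i := b)),
        mul_left_comm _ (z.rep i ^ _), ← Finset.mul_sum]
      exact mul_eq_zero_of_right _ c1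
  have Λi : Function.Injective Λ := (injective_iff_map_eq_zero _).2 fun p hp => by
    have a0 : fderiv ℂ σ t₀ p.2 i = 0 := by
      have c := (hasFDerivAt_pi'.1 hσ.hasFDerivAt i).fderiv
      have c0 : (fun t => σ t i) =ᶠ[𝓝 t₀] fun _ => 1 := h1
      rw [c0.fderiv_eq, fderiv_fun_const] at c
      exact (DFunLike.congr_fun c p.2).symm
    have a1 : p.1 * z.rep i + fderiv ℂ σ t₀ p.2 i = 0 := congrFun hp i
    rw [a0, add_zero] at a1
    have a2 : p.1 = 0 := (mul_eq_zero.1 a1).resolve_right hi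
    have a3 : p.1 • z.rep + fderiv ℂ σ t₀ p.2 = 0 := hp
    rw [a2, zero_smul, zero_add] at a3
    exact Prod.ext a2 (inj _ a3)
  have := LinearMap.finrank_le_finrank_of_injective (f := Λ.codRestrict _ ΛK)
    ((Λ.injective_codRestrict_iff _).2 Λi)
  simp only [Module.finrank_prod, Module.finrank_self, Module.finrank_fin_fun] at this
  omega

variable {X : Type} [TopologicalSpace X] [ChartedSpace (Cm n) X] [IsManifold 𝓘(ℂ, Cm n) ω X]
  {Φ : X → PN N}

theorem ident [ConnectedSpace X] (hΦ : IsProjectiveImmersion (Cm n) Φ)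
    {f : MvPolynomial (Fin (N + 1)) ℂ} {d : ℕ} (hf : f.IsHomogeneous d) {q : X}
    (hq : ∀ᶠ y in 𝓝 q, eval (Φ y).rep f = 0) (x : X) : eval (Φ x).rep f = 0 := by
  have hc : IsClopen {x | ∀ᶠ y in 𝓝 x, eval (Φ y).rep f = 0} := by
    refine ⟨isClosed_iff_frequently.2 fun x hx => ?_, isOpen_setOf_eventually_nhds⟩
    obtain ⟨i, hi⟩ := exists_chart (Φ x)
    have he := at_chart (n := n) x
    set e : Chart n X := chartAt (Cm n) x
    have L := lift_aff hΦ i
    have a1 : AnalyticAt ℂ (fun t => ev f (aff i (Φ (e.symm t)))) (e x) :=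
      (an_ev f _).comp (L.holo x hi e he).analyticAt
    obtain ⟨r, hr, hB⟩ := Metric.eventually_nhds_iff_ball.1 a1.eventually_analyticAt
    have n1 : ∀ᶠ y in 𝓝 x, y ∈ e.source ∧ (Φ y).rep i ≠ 0 ∧ e y ∈ Metric.ball (e x) r :=
      (e.open_source.eventually_mem he.2).and ((L.isOpen.eventually_mem hi).and
        ((e.continuousAt he.2).eventually (Metric.ball_mem_nhds _ hr)))
    obtain ⟨y, hy, y1, y2, y3⟩ := (hx.and_eventually n1).exists
    have z : EqOn (fun t => ev f (aff i (Φ (e.symm t)))) 0 (Metric.ball (e x) r) := by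
      refine AnalyticOnNhd.eqOn_zero_of_preconnected_of_eventuallyEq_zero hB
        (convex_ball _ _).isPreconnected y3 ?_
      filter_upwards [(e.tendsto_symm y1).eventually
        (Eventually.and hy (L.isOpen.eventually_mem y2))] with t ht
      exact (eval_rep_eq_zero ht.2 hf).1 ht.1
    refine n1.mono fun y hy => ?_
    have := z hy.2.2
    simp only [e.left_inv hy.1] at this
    exact (eval_rep_eq_zero hy.2.1 hf).2 this
  exact Eventually.self_of_nhds (p := fun y => eval (Φ y).rep f = 0)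
    ((hc.eq_univ ⟨q, hq⟩).ge (mem_univ x))

theorem ev_ne (hΦ : IsProjectiveImmersion (Cm n) Φ) {f : MvPolynomial (Fin (N + 1)) ℂ} {d : ℕ}
    (hf : f.IsHomogeneous d) {x : X} (hx : eval (Φ x).rep f ≠ 0) :
    ∀ᶠ y in 𝓝 x, eval (Φ y).rep f ≠ 0 := by
  obtain ⟨i, hi⟩ := exists_chart (Φ x)
  have he := at_chart (n := n) x
  set e : Chart n X := chartAt (Cm n) x
  have L := lift_aff hΦ i
  have a1 : ContinuousAt (fun t => ev f (aff i (Φ (e.symm t)))) (e x) :=
    ((an_ev f _).comp (L.holo x hi e he).analyticAt).continuousAt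
  have a2 : ev f (aff i (Φ (e.symm (e x)))) ≠ 0 := by
    rw [e.left_inv he.2]
    exact fun h => hx ((eval_rep_eq_zero hi hf).2 h)
  filter_upwards [(e.continuousAt he.2).eventually (a1.eventually_ne a2),
    e.open_source.mem_nhds he.2, L.isOpen.mem_nhds hi] with y y1 y2 y3
  rw [e.left_inv y2] at y1
  exact fun h => y1 ((eval_rep_eq_zero y3 hf).1 h)

theorem irr [ConnectedSpace X] (hΦ : IsProjectiveImmersion (Cm n) Φ) (hZ : IsZar (range Φ)) :
    IrrClosed (range Φ) := by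
  refine ⟨hZ, range_nonempty _, fun A B a b h => ?_⟩
  by_contra! c
  obtain ⟨_, ⟨p, rfl⟩, p2⟩ := not_subset.1 c.1
  obtain ⟨_, ⟨q, rfl⟩, q2⟩ := not_subset.1 c.2
  obtain ⟨f, d, f1, f2, f3⟩ := isZar_iff.1 a _ p2
  obtain ⟨g, e, g1, g2, g3⟩ := isZar_iff.1 b _ q2
  refine f3 (ident hΦ f1 ((ev_ne hΦ g1 g3).mono fun y hy => ?_) p)
  exact (h ⟨y, rfl⟩).elim (f2 _) fun k => absurd (g2 _ k) hy

theorem low_at (hΦ : IsProjectiveImmersion (Cm n) Φ) (x : X) :
    n + 1 ≤ Module.finrank ℂ (tangent (range Φ) (Φ x)) := by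
  obtain ⟨i, hi⟩ := exists_chart (Φ x)
  have he := at_chart (n := n) x
  set e : Chart n X := chartAt (Cm n) x
  have L := lift_aff hΦ i
  refine low (σ := fun t => aff i (Φ (e.symm t))) (t₀ := e x) (mem_range_self x) hi
    (L.holo x hi e he).analyticAt.differentiableAt (by rw [e.left_inv he.2]) (fun P d hd hP => ?_) ?_
    fun v hv => L.imm x hi e he v 0 (by rw [hv, zero_smul])
  · filter_upwards [ev_symm he L.isOpen hi] with t ht
    exact (eval_rep_eq_zero ht hd).1 (hP _ ⟨_, rfl⟩)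
  · filter_upwards [ev_symm he L.isOpen hi] with t ht
    exact aff_self ht

theorem dim_eq (hΦ : IsProjectiveImmersion (Cm n) Φ) (hZ : IrrClosed (range Φ))
    (up : ∀ x, Module.finrank ℂ (tangent (range Φ) (Φ x)) ≤ n + 1) : HasDimP (range Φ) n := by
  obtain ⟨d, hd⟩ := exists_dimP hZ
  obtain ⟨z, hz⟩ := hZ.2.1
  obtain ⟨i, hi⟩ := exists_chart z
  obtain ⟨_, ⟨x, rfl⟩, -, -, -, ⟨C⟩⟩ := P009.AV.H38.exists_chart_near hZ isZar_empty
    (fun h => h hz) hd hz hi one_pos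
  have c0 : Metric.ball (0 : Cm d) C.r ∈ 𝓝 0 := Metric.ball_mem_nhds _ C.hr
  have c1 := C.Φdiff.differentiableAt c0
  have c2 : DifferentiableAt ℂ C.Ψ (C.Φ 0) := C.Φ0 ▸ C.Ψan.differentiableAt
  have c3 : C.Ψ (C.Φ 0) = 0 := C.Ψl 0 (Metric.mem_ball_self C.hr)
  have u : d + 1 ≤ Module.finrank ℂ (tangent (range Φ) (Φ x)) := by
    refine low (σ := C.Φ) (t₀ := 0) (mem_range_self x) C.hi c1 C.Φ0 (fun P k hk hP => ?_)
      (eventually_of_mem c0 C.Φi) fun v hv => ?_
    · filter_upwards [c0] with s s1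
      obtain ⟨Q, hQ, h0, rfl⟩ := C.Φmem s s1
      obtain ⟨a, ha⟩ := Projectivization.exists_smul_eq_mk_rep ℂ _ h0
      have := hP _ hQ
      rw [← ha, Units.smul_def, eval_smul' hk] at this
      exact (mul_eq_zero.1 this).resolve_left (pow_ne_zero _ a.ne_zero)
    · have c := fderiv_comp 0 c2 c1
      have c4 : C.Ψ ∘ C.Φ =ᶠ[𝓝 0] id := eventually_of_mem c0 C.Ψl
      rw [c4.fderiv_eq, fderiv_id] at c
      have := DFunLike.congr_fun c v
      rwa [ContinuousLinearMap.comp_apply, hv, map_zero] at this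
  have l : n ≤ d := by
    have he := at_chart (n := n) x
    set e : Chart n X := chartAt (Cm n) x
    have L := lift_aff hΦ C.i
    set σ := fun t => aff C.i (Φ (e.symm t)) with hσ
    have s0 : σ (e x) = C.Φ 0 := by rw [C.Φ0, hσ]; simp only [e.left_inv he.2]
    have s1 : DifferentiableAt ℂ σ (e x) := (L.holo x C.hi e he).analyticAt.differentiableAt
    have s2 : DifferentiableAt ℂ (C.Ψ ∘ σ) (e x) := DifferentiableAt.comp _ (s0 ▸ c2) s1
    obtain ⟨δ, hδ, hU⟩ := C.opn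
    have s3 : C.Φ ∘ (C.Ψ ∘ σ) =ᶠ[𝓝 (e x)] σ := by
      filter_upwards [ev_symm he L.isOpen C.hi,
        s1.continuousAt.eventually (Metric.ball_mem_nhds _ hδ)] with t t1 t2
      rw [s0, C.Φ0] at t2
      obtain ⟨s, k1, k2⟩ := hU _ ⟨_, rfl⟩ t1 (mem_ball_iff_norm.1 t2)
      show C.Φ (C.Ψ (aff C.i (Φ (e.symm t)))) = aff C.i (Φ (e.symm t))
      rw [← k2, C.Ψl s k1]
    have s4 : (C.Ψ ∘ σ) (e x) = 0 := by rw [Function.comp, s0, c3]
    have c := fderiv_comp (e x) (s4 ▸ c1 : DifferentiableAt ℂ C.Φ ((C.Ψ ∘ σ) (e x))) s2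
    rw [s3.fderiv_eq] at c
    have j : Function.Injective (fderiv ℂ (C.Ψ ∘ σ) (e x)).toLinearMap :=
      (injective_iff_map_eq_zero _).2 fun v hv => L.imm x C.hi e he v 0 (by
        have hv' : fderiv ℂ (C.Ψ ∘ σ) (e x) v = 0 := hv
        show fderiv ℂ σ (e x) v = _
        rw [c, ContinuousLinearMap.comp_apply, hv', map_zero, zero_smul])
    simpa only [Module.finrank_fin_fun] using LinearMap.finrank_le_finrank_of_injective j
  have := up x
  obtain rfl : d = n := by omega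
  exact hd

/-- every dimension -/
theorem variety [CompactSpace X] [ConnectedSpace X] (inj : Function.Injective Φ)
    (hΦ : IsProjectiveImmersion (Cm n) Φ) : IsSmoothVariety n (range Φ) := by
  obtain ⟨S, ⟨hom, zs⟩, jk⟩ := chow' inj hΦ
  have z0 : ∀ z : PN N, z ∈ range Φ ↔ ∀ P ∈ S, eval z.rep P = 0 := fun z => by
    rw [← zs _ z.rep_nonzero, z.mk_rep]
  have up : ∀ x, Module.finrank ℂ (tangent (range Φ) (Φ x)) ≤ n + 1 := fun x => by
    rw [← jk _ (Φ x).rep_nonzero ⟨x, (Φ x).mk_rep.symm⟩]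
    exact Submodule.finrank_mono fun v hv P hP => hv P ⟨hom P hP, fun y hy => (z0 y).1 hy P hP⟩
  have hI := irr hΦ ⟨S, hom, z0⟩
  refine ⟨hI, dim_eq hΦ hI up, ?_⟩
  rintro _ ⟨x, rfl⟩
  exact le_antisymm (up x) (low_at hΦ x)

end Vale.Agent.P280A.V19

theorem Vale.Agent.P280A.var : Vale.Agent.P280A.VAR :=
  fun _ _ _ _ _ _ _ _ _ inj hΦ => Vale.Agent.P280A.V19.variety inj hΦ

end
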